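import Vale.Agent.P352.BW.H284.Smo
import Vale.Agent.P352.BW.Fe4

/-!
# P352 BW: domains that are invariant under the null deformations
-/

set_option linter.all false

noncomputable section

open MeasureTheory Filter Topology
open scoped ComplexConjugate InnerProductSpace BoundedContinuousFunction

namespace Vale.Agent.P352.BW

open Vale.Agent.P132 (ModData expB)
open UniformSpace (Completion)
open GF H246 H496 H755 H15

variable {D : Type*} [NormedAddCommGroup D] [InnerProductSpace ℂ D] {Q : Theory D}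
  {A : (V → V) → D → D} {𝒜 : Set V → VonNeumannAlgebra (Completion D)}
  {S : V → ℝ → Completion D →L[ℂ] Completion D}

namespace H284

/-- the derivative of the deformations, from the derivative of the modular unitaries -/
theorem gen_of {M N : VonNeumannAlgebra (Completion D)} {ξ : Completion D} (E : ModData M ξ)
    (E' : ModData N ξ) {S : ℝ → Completion D →L[ℂ] Completion D}
    (hm : ∀ t z, E'.U t z = S (1 - Real.exp (-(2 * Real.pi * t))) (E.U t z)) {v k w : D}
    (hk : HasDerivAt (fun t : ℝ => E.U t (v : Completion D)) (k : Completion D) 0)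
    (hw : HasDerivAt (fun t : ℝ => E'.U t (v : Completion D)) (w : Completion D) 0) :
    ∃ g : D, HasDerivAt (fun c : ℝ => S c (v : Completion D))
      ((Complex.I • g : D) : Completion D) 0 := by
  have hψ : HasDerivAt (fun t : ℝ => E.U (-t) (v : Completion D))
      (-(k : Completion D)) 0 := by
    have h1 : HasDerivAt (fun t : ℝ => E.U t (v : Completion D)) (k : Completion D)
        ((fun t : ℝ => -t) 0) := by
      show HasDerivAt _ _ (-(0 : ℝ))
      rw [neg_zero]
      exact hk
    have h2 := h1.scomp (0 : ℝ) (hasDerivAt_neg (0 : ℝ))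
    rw [neg_smul, one_smul] at h2
    exact h2
  have hφ := JB.prod_der (fun t => E'.U t) (fun t z => (JB.norm_U E' t z).le)
    (fun z => E'.continuous_U_apply z) (JB.U_zero E') (w := ((w : D) : Completion D)) hψ (by
      simp only [neg_zero, JB.U_zero E]
      exact hw)
  have hφS : ∀ c : ℝ, c < 1 → S c (v : Completion D) =
      E'.U (-(Real.log (1 - c)) / (2 * Real.pi))
        (E.U (-(-(Real.log (1 - c)) / (2 * Real.pi))) (v : Completion D)) := by
    intro c hc
    rw [hm]
    have e1 : (1 - Real.exp (-(2 * Real.pi * (-(Real.log (1 - c)) / (2 * Real.pi))))) =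
        c := by
      have e2 : -(2 * Real.pi * (-(Real.log (1 - c)) / (2 * Real.pi))) = Real.log (1 - c) := by
        field_simp
      rw [e2, Real.exp_log (by linarith)]
      ring
    rw [e1, E.U_apply_neg]
  have h0 : -(Real.log (1 - (0 : ℝ))) / (2 * Real.pi) = 0 := by simp
  have hφ' : HasDerivAt (fun t : ℝ => E'.U t (E.U (-t) (v : Completion D)))
      (((w : D) : Completion D) + -(k : Completion D))
      ((fun c : ℝ => -(Real.log (1 - c)) / (2 * Real.pi)) 0) := by
    show HasDerivAt _ _ (-(Real.log (1 - (0 : ℝ))) / (2 * Real.pi))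
    rw [h0]
    exact hφ
  have h1 := hφ'.scomp (0 : ℝ) JB.tau_der
  refine ⟨(-Complex.I) • ((1 / (2 * Real.pi) : ℝ) • (w + -k)), ?_⟩
  have e3 : (((Complex.I • ((-Complex.I) • ((1 / (2 * Real.pi) : ℝ) •
      (w + -k)))) : D) : Completion D) = (1 / (2 * Real.pi) : ℝ) •
      (((w : D) : Completion D) + -(k : Completion D)) := by
    have e4 : Complex.I • ((-Complex.I) • ((1 / (2 * Real.pi) : ℝ) •
        (w + -k))) = (1 / (2 * Real.pi) : ℝ) • (w + -k) := by
      rw [smul_smul]
      simp
    rw [e4, UniformSpace.Completion.coe_smul, UniformSpace.Completion.coe_add,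
      UniformSpace.Completion.coe_neg]
  rw [e3]
  refine h1.congr_of_eventuallyEq ?_
  filter_upwards [Iio_mem_nhds (show (0 : ℝ) < 1 by norm_num)] with c hc
  exact hφS c hc

/-- the modular unitaries of `Rg a b 1` in terms of the deformations -/
lemma mod1 (hG : TfGen Q) (N : LNm Q A 𝒜) (h : Gr0 Q 𝒜 S) {a b : V} (ha : IsNull a)
    (hb : IsNull b) (hab : GF.mdot a b = 1) (E : ModData (𝒜 (Wdg a b 0)) (om Q))
    (E' : ModData (𝒜 (HM.Rg a b 1)) (om Q)) (t : ℝ) (z : Completion D) :
    E'.U t z = S a (1 - Real.exp (-(2 * Real.pi * t))) (E.U t z) := by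
  have := h.mod (ublock N.toRep) (fun a b t L E z ha hb hab hL hx => N.bw hG a b t L E z ha hb
    hab hL hx) ha hb hab zero_le_one E E' t z
  rwa [one_mul] at this

end H284

/-- **A domain that is invariant under the deformations is differentiable**, with derivatives in
the domain. -/
theorem sinv_dif (hG : TfGen Q) (N : LNm Q A 𝒜) (h : Gr0 Q 𝒜 S)
    (hD : ∀ a c (x : D), IsNull a → ∃ y : D, S a c (x : Completion D) = y) : ∃ G, Dif S G := by
  have key : ∀ (a : V) (v : D), ∃ g : D, IsNull a →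
      HasDerivAt (fun c : ℝ => S a c (v : Completion D))
        ((Complex.I • g : D) : Completion D) 0 := by
    intro a v
    by_cases ha : IsNull a
    · obtain ⟨b, hb, hab⟩ := H755.exists_dual ha
      obtain ⟨E⟩ := N.modW ha hb hab
      obtain ⟨E'⟩ := N.modR ha hb hab zero_le_one
      have hI : ∀ t (v : D), ∃ w : D, E'.U t (v : Completion D) = w := by
        intro t v
        rw [H284.mod1 hG N h ha hb hab E E', H284.EU N hG ha hb hab E v t]
        exact hD a _ _ ha
      obtain ⟨w, hw⟩ := H284.reg_of N hG ha hb hab E' hI v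
      obtain ⟨k, hk⟩ := H284.EK N hG ha hb hab E v
      obtain ⟨g, hg⟩ := H284.gen_of E E' (S := S a) (H284.mod1 hG N h ha hb hab E E') hk hw
      exact ⟨g, fun _ => hg⟩
    · exact ⟨0, fun h1 => absurd h1 ha⟩
  choose G hG' using key
  exact ⟨G, fun a x ha => hG' a x ha⟩

/-- **The domain is invariant under the deformations, if it is invariant under the modular unitaries
of one region.** -/
theorem inv_sinv (hG : TfGen Q) (N : LNm Q A 𝒜) (h : Gr0 Q 𝒜 S) (hI : Inv Q 𝒜) :
    ∀ a c (x : D), IsNull a → ∃ y : D, S a c (x : Completion D) = y := by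
  obtain ⟨a0, b0, ha0, hb0, hab0, hI⟩ := hI
  obtain ⟨E⟩ := N.modW ha0 hb0 hab0
  obtain ⟨E'⟩ := N.modR ha0 hb0 hab0 zero_le_one
  have h1 : ∀ c : ℝ, c < 1 → ∀ v : D, ∃ w : D, S a0 c (v : Completion D) = w := by
    intro c hc v
    set t : ℝ := -(Real.log (1 - c)) / (2 * Real.pi) with ht
    have hp := Real.pi_pos
    have e1 : 1 - Real.exp (-(2 * Real.pi * t)) = c := by
      have : -(2 * Real.pi * t) = Real.log (1 - c) := by
        rw [ht]
        field_simp
      rw [this, Real.exp_log (by linarith)]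
      ring
    have h2 := H284.mod1 hG N h ha0 hb0 hab0 E E' t (E.U (-t) (v : Completion D))
    rw [e1, E.U_apply_neg, H284.EU N hG ha0 hb0 hab0 E v (-t)] at h2
    rw [← h2]
    exact hI _ _ (isMod E') t _
  have h2 : ∀ n : ℕ, ∀ c : ℝ, c < n + 1 → ∀ v : D, ∃ w : D, S a0 c (v : Completion D) = w := by
    intro n
    induction n with
    | zero =>
      intro c hc v
      refine h1 c ?_ v
      simpa using hc
    | succ n ih =>
      intro c hc v
      rcases lt_or_ge c 1 with h3 | h3
      · exact h1 c h3 v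
      · push_cast at hc
        obtain ⟨w, hw⟩ := h1 (1 / 2) (by norm_num) v
        obtain ⟨w', hw'⟩ := h1 (1 / 2) (by norm_num) w
        obtain ⟨w2, hw2⟩ := ih (c - 1) (by linarith) w'
        refine ⟨w2, ?_⟩
        have e : S a0 c = S a0 (c - 1) * (S a0 (1 / 2) * S a0 (1 / 2)) := by
          rw [← h.add a0 _ _ ha0, ← h.add a0 _ _ ha0]
          congr 1
          ring
        rw [e]
        show S a0 (c - 1) (S a0 (1 / 2) (S a0 (1 / 2) (v : Completion D))) = w2
        rw [hw, hw', hw2]
  have h3 : ∀ (c : ℝ) (v : D), ∃ w : D, S a0 c (v : Completion D) = w := by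
    intro c v
    obtain ⟨n, hn⟩ := exists_nat_gt c
    exact h2 n c (by linarith) v
  intro a c x ha
  obtain ⟨n, w, r, hn, hw, hr, hL1⟩ := ND.exists_nrt ha0 ha
  have hL := H746.isLor_nrt hn hw
  have hU := ublock N.toRep
  obtain ⟨x0, hx0⟩ : ∃ x0 : D, Q.U 1 (H746.nrt n w) 0 x0 = x := ⟨_, ue_inv N.toRep one_pos hL 0 x⟩
  obtain ⟨y, hy⟩ := h3 (c / r) x0
  refine ⟨Q.U 1 (H746.nrt n w) 0 y, ?_⟩
  have h4 := h.cov 1 (H746.nrt n w) r a0 a (c / r) (x0 : Completion D) one_pos hr hL ha0 ha hL1
  rw [hy, hU.coe 1 _ 0 y one_pos hL, hU.coe 1 _ 0 x0 one_pos hL, hx0, div_one,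
    mul_div_cancel₀ _ hr.ne'] at h4
  exact h4.symm

/-- conversely -/
theorem sinv_inv (hu : UqStmt (Completion D)) (hG : TfGen Q) (N : LNm Q A 𝒜) (h : Gr0 Q 𝒜 S)
    (hD : ∀ a c (x : D), IsNull a → ∃ y : D, S a c (x : Completion D) = y) : Inv Q 𝒜 := by
  obtain ⟨a, b, ha, hb, hab⟩ := exists_pair'
  refine ⟨a, b, ha, hb, hab, fun V J hM t v => ?_⟩
  obtain ⟨E⟩ := N.modW ha hb hab
  obtain ⟨E'⟩ := N.modR ha hb hab zero_le_one
  rw [hu _ _ E' V J hM t v, H284.mod1 hG N h ha hb hab E E', H284.EU N hG ha hb hab E v t]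
  exact hD a _ _ ha

/-- **Invariance under the modular unitaries of one region implies regularity.** -/
theorem inv_dif (hG : TfGen Q) (N : LNm Q A 𝒜) (h : Gr0 Q 𝒜 S) (hI : Inv Q 𝒜) : ∃ G, Dif S G :=
  sinv_dif hG N h (inv_sinv hG N h hI)

/-- the equivalence of the two invariance properties -/
theorem inv_iff (hu : UqStmt (Completion D)) (hG : TfGen Q) (N : LNm Q A 𝒜) (h : Gr0 Q 𝒜 S) :
    Inv Q 𝒜 ↔ ∀ a c (x : D), IsNull a → ∃ y : D, S a c (x : Completion D) = y :=
  ⟨inv_sinv hG N h, sinv_inv hu hG N h⟩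

/-- regularity -/
theorem inv_smo (hu : UqStmt (Completion D)) (hG : TfGen Q) (N : LNm Q A 𝒜) (hI : Inv Q 𝒜) :
    Smo Q 𝒜 := inv_smo' hu hG N hI

end Vale.Agent.P352.BW

end
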