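import Vale.Agent.P352.BW.H26.Lcc
import Vale.Agent.P352.BW.Fe4
import Vale.Agent.P352.NF.F5

/-!
# P352 BW: the conformal algebra on `D` from the law of the null deformations
-/

set_option linter.all false

noncomputable section

open MeasureTheory Filter Topology

namespace Vale.Agent.P352.BW.H284C

open GF (Ix V Fn Fld Theory IsLor bas eta o sim)
open H246 H496 H755 H15
open Vale.Agent.P132 (ModData)
open UniformSpace (Completion)
open H26L

variable {D : Type*} [NormedAddCommGroup D] [InnerProductSpace ℂ D] {Q : Theory D}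
  {A : (V → V) → D → D} {𝒜 : Set V → VonNeumannAlgebra (Completion D)}
  {S : V → ℝ → Completion D →L[ℂ] Completion D} {G : V → D → D}

/-! ### The null generators on `D`, without currents -/

theorem ks_congr {G' : V → D → D} (hh : ∀ a x, IsNull a → G a x = G' a x) (h : NF.KS Q A G') :
    NF.KS Q A G :=
  { h.toRep with
    symm := fun a v w ha => by rw [hh a _ ha, hh a _ ha]; exact h.symm a v w ha
    cov := fun s L r a b v hs hr hL ha hb e => by
      rw [hh a _ ha, hh b _ hb]; exact h.cov s L r a b v hs hr hL ha hb e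
    tra := fun a x v ha hx => by rw [hh a _ ha, hh a _ ha]; exact h.tra a x v ha hx }

theorem ks_dif (hu : UqStmt (Completion D)) (hG : TfGen Q) (N : LNm Q A 𝒜) (hS : Gr0 Q 𝒜 S)
    (hD : Dif S G) : NF.KS Q A G := by
  have hs : Smo Q 𝒜 := (hS.grp hD).smo hu hG N
  have M : LNet Q A 𝒜 := Vale.Agent.P352.BW.T.net1 hG (N.lnt1 hs).lnt.lnet0
  have hV : VNet Q A 𝒜 := M.vnet
  have hU : UStmt Q A := ublock M.toRep
  obtain ⟨S1, hS1⟩ := (g1S (A := A)) hV
  have hN : ∀ a b, IsNull a → IsNull b → GF.mdot a b = 1 → Nd Q 𝒜 a b (S1 a b) ∧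
      Nonempty (ModData (𝒜 (Wdg a b 0)) (om Q)) ∧
      ∀ c : ℝ, 0 < c → Nonempty (ModData (𝒜 (HM.Rg a b c)) (om Q)) := fun a b ha hb hab =>
    ⟨(hS1 a b ha hb hab).1, (hS1 a b ha hb hab).2.1, (hS1 a b ha hb hab).2.2.1⟩
  have hN1 : ∀ a b, IsNull a → IsNull b → GF.mdot a b = 1 → Nd Q 𝒜 a b (S1 a b) ∧
      Nonempty (ModData (𝒜 (Wdg a b 0)) (om Q)) ∧
      Nonempty (ModData (𝒜 (HM.Rg a b 1)) (om Q)) := fun a b ha hb hab =>
    ⟨(hS1 a b ha hb hab).1, (hS1 a b ha hb hab).2.1, (hS1 a b ha hb hab).2.2.1 1 one_pos⟩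
  have hG3 : G3Stmt Q S1 := g3block S1 hV hN
  obtain ⟨G1, hG1⟩ := jblock (S := S1) hU hV hN1 hG3
  have hG2 : G2Stmt Q A 𝒜 S1 := g2 eblock hU (fun a b ha hb hab => (hN a b ha hb hab).2) S1
  have hKS : NF.KS Q A G1 := ksblock (S := S1) hU hN1 hV hG2 hG3
    (fun a b ha hb hab => (hN a b ha hb hab).1) hG1
  obtain ⟨S2, hS2⟩ := H728.grp_of M hN hG1
  exact ks_congr (fun a x ha => dif_eq hD (hS.dif hG N hS2) ha x) hKS

/-! ### The curve of similitudes -/

/-- the rate of expansion -/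
def mm (t e : ℝ) : ℝ := (cs (-(2 * t)) e)⁻¹

lemma mm_pos (t e : ℝ) : 0 < mm t e := inv_pos.2 (cs_pos _ _)

lemma mm_zero (t : ℝ) : mm t 0 = 1 := by
  unfold mm
  rw [H26L.cs_zero, inv_one]

lemma mm_der (t : ℝ) : HasDerivAt (mm t) (2 * t) 0 := by
  have h := (cs_der (-(2 * t))).inv (by rw [H26L.cs_zero]; exact one_ne_zero)
  refine h.congr_deriv ?_
  rw [H26L.cs_zero]
  ring

/-- the curve of Lorentz transformations -/
def LL (a b : V) (t e : ℝ) : Ix → V := bst a b ((mm t e)⁻¹ - 1) (mm t e - 1)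

lemma LL_lor {a b : V} (ha : IsNull a) (hb : IsNull b) (hab : GF.mdot a b = 1) (t e : ℝ) :
    IsLor (LL a b t e) := isLor_cs ha hb hab _ (mm_pos t e)

lemma LL_zero (a b : V) (t : ℝ) : LL a b t 0 = GF.one := by
  unfold LL
  rw [mm_zero, inv_one, sub_self, bst_zz]

/-- the curve of translations -/
def xx (b : V) (t e : ℝ) : V := (t * (mm t e * (mm t e - 1))) • b

lemma xx_zero (b : V) (t : ℝ) : xx b t 0 = 0 := by
  unfold xx
  rw [mm_zero, sub_self, mul_zero, mul_zero, zero_smul]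

lemma curve_der {a b : V} (ha : IsNull a) (hb : IsNull b) (hab : GF.mdot a b = 1) (t : ℝ)
    (n : Ix) (y : V) :
    HasDerivAt (fun e => sim (mm t e) (LL a b t e) (xx b t e) y n) (XX a (-(t • b)) y n) 0 := by
  have e1 : (fun e : ℝ => sim (mm t e) (LL a b t e) (xx b t e) y n) = fun e : ℝ =>
      mm t e * (y n + ((mm t e)⁻¹ - 1) * GF.mdot b y * a n + (mm t e - 1) * GF.mdot a y * b n) +
        t * (mm t e * (mm t e - 1)) * b n := by
    funext e
    unfold LL xx
    rw [HM.sim_at, sim_s, sim_bst]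
    simp only [Pi.add_apply, Pi.smul_apply, smul_eq_mul]
  rw [e1]
  have h0 := mm_der t
  have h1 := h0.inv (by rw [mm_zero]; exact one_ne_zero)
  have h2 := ((((h1.sub_const 1).mul_const (GF.mdot b y)).mul_const (a n)).const_add (y n)).add
    (((h0.sub_const 1).mul_const (GF.mdot a y)).mul_const (b n))
  have h3 := (h0.mul h2).add (((h0.mul (h0.sub_const 1)).const_mul t).mul_const (b n))
  refine h3.congr_deriv ?_
  simp only [mm_zero, Pi.add_apply, Pi.sub_apply, Pi.smul_apply, Pi.inv_apply, smul_eq_mul, id,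
    XX, cK, ← neg_smul, md_smul, md_smul_l, hab, hb.1]
  ring

/-- the curve of similitudes, composed with the translation -/
lemma U_curve (R : Rep Q A) {a b : V} (ha : IsNull a) (hb : IsNull b) (hab : GF.mdot a b = 1)
    (t e : ℝ) (v : D) :
    Q.U (mm t e) (LL a b t e) (-(t * mm t e) • b) v =
      Q.U (mm t e) (LL a b t e) (xx b t e) (Q.U 1 GF.one (-(t • b)) v) := by
  rw [R.mul (mm t e) (LL a b t e) (xx b t e) 1 GF.one (-(t • b)) v (mm_pos t e) one_pos
    (LL_lor ha hb hab t e) isLor_one, mul_one]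
  have e1 : (fun k => sim 1 (LL a b t e) 0 (GF.one k)) = LL a b t e := by
    funext k
    rw [H26.sim_row (LL a b t e) k]
    rfl
  have e2 : sim (mm t e) (LL a b t e) (xx b t e) (-(t • b)) = -(t * mm t e) • b := by
    unfold LL xx
    rw [HM.sim_at, sim_s, sim_bst, ← neg_smul, md_smul, md_smul, hb.1, hab]
    funext n
    simp only [Pi.add_apply, Pi.smul_apply, smul_eq_mul]
    ring
  rw [e1, e2]

/-! ### The derivative of the law -/

/-- The law of the conformal group for the null deformations and the translations. -/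
def LawS (Q : Theory D) (S : V → ℝ → Completion D →L[ℂ] Completion D) : Prop :=
  ∀ (a b : V) (t c : ℝ) (L : Ix → V) (z : Completion D), IsNull a → IsNull b →
    GF.mdot a b = 1 → 0 < 1 + 2 * c * t →
    (∀ x, sim 1 L 0 x = x + (((1 + 2 * c * t)⁻¹ - 1) * GF.mdot b x) • a +
      (2 * c * t * GF.mdot a x) • b) →
    Ue Q 1 GF.one (-(t • b)) (S a c z) =
      S a (c / (1 + 2 * c * t)) (Ue Q (1 + 2 * c * t) L (-(t * (1 + 2 * c * t)) • b) z)

lemma law_e (hU : UStmt Q A) (R : Rep Q A) (hL : LawS Q S) {a b : V} (ha : IsNull a)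
    (hb : IsNull b) (hab : GF.mdot a b = 1) (t : ℝ) (v : D) :
    ∀ᶠ e in 𝓝 (0 : ℝ), Ue Q 1 GF.one (-(t • b)) (S a (e * mm t e) (v : Completion D)) =
      S a e ((Q.U (mm t e) (LL a b t e) (xx b t e) (Q.U 1 GF.one (-(t • b)) v) : D) :
        Completion D) := by
  have h0 : ∀ᶠ e in 𝓝 (0 : ℝ), 0 < 1 + -(2 * t) * e := by
    have h1 : ContinuousAt (fun e : ℝ => 1 + -(2 * t) * e) 0 := by fun_prop
    exact h1.eventually (lt_mem_nhds (by norm_num))
  filter_upwards [h0] with e he
  have hm : mm t e = (1 + -(2 * t) * e)⁻¹ := by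
    unfold mm cs
    rw [if_pos he]
  have hm1 : 1 + 2 * (e * mm t e) * t = mm t e := by
    have h3 : mm t e * (1 + -(2 * t) * e) = 1 := by
      rw [hm]
      exact inv_mul_cancel₀ he.ne'
    linear_combination -h3
  have hq : e * mm t e / (1 + 2 * (e * mm t e) * t) = e := by
    rw [hm1, mul_div_assoc, div_self (mm_pos t e).ne', mul_one]
  have hb1 : 2 * (e * mm t e) * t = mm t e - 1 := by linarith
  have h1 := hL a b t (e * mm t e) (LL a b t e) (v : Completion D) ha hb hab
    (by rw [hm1]; exact mm_pos t e) (fun x => by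
      rw [hm1, hb1]
      exact sim_bst a b _ _ x)
  rw [hq, hm1, hU.coe (mm t e) (LL a b t e) _ v (mm_pos t e) (LL_lor ha hb hab t e),
    U_curve R ha hb hab t e v] at h1
  exact h1

theorem tra_neg (hU : UStmt Q A) (R : Rep Q A) (h : Gr0 Q 𝒜 S) (hD : Dif S G)
    (hL : LawS Q S) {a b : V} (ha : IsNull a) (hb : IsNull b) (hab : GF.mdot a b = 1) (t : ℝ)
    (v : D) : Q.U 1 GF.one (-(t • b)) (G a v) = G a (Q.U 1 GF.one (-(t • b)) v) +
      A (XX a (-(t • b))) (Q.U 1 GF.one (-(t • b)) v) := by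
  obtain ⟨W, hW⟩ := hU.lin 1 GF.one (-(t • b)) one_pos isLor_one
  set y : D := Q.U 1 GF.one (-(t • b)) v with hy
  have hn : ∀ c z, ‖S a c z‖ ≤ ‖z‖ := by
    intro c z
    have h1 := h.inn a c z z ha
    rw [inner_self_eq_norm_sq_to_K, inner_self_eq_norm_sq_to_K] at h1
    have h2 : ‖S a c z‖ ^ 2 = ‖z‖ ^ 2 := by exact_mod_cast h1
    exact ((pow_left_inj₀ (norm_nonneg _) (norm_nonneg _) two_ne_zero).1 h2).le
  -- the left side
  have hc : HasDerivAt (fun e : ℝ => e * mm t e) 1 0 := by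
    have h1 := (hasDerivAt_id (0 : ℝ)).mul (mm_der t)
    refine h1.congr_deriv ?_
    rw [mm_zero]
    simp
  have d1 : HasDerivAt (fun e : ℝ => W (S a (e * mm t e) (v : Completion D)))
      (W ((Complex.I • G a v : D) : Completion D)) 0 := by
    refine KB.lin_der W ?_
    have h1 : HasDerivAt (fun c : ℝ => S a c (v : Completion D))
        ((Complex.I • G a v : D) : Completion D) ((fun e : ℝ => e * mm t e) 0) := by
      show HasDerivAt _ _ ((0 : ℝ) * mm t 0)
      rw [zero_mul]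
      exact hD a v ha
    exact (h1.scomp (0 : ℝ) hc).congr_deriv (one_smul _ _)
  -- the right side
  have h0 : Q.U (mm t 0) (LL a b t 0) (xx b t 0) y = y := by
    rw [mm_zero, LL_zero, xx_zero]
    exact Uone y
  have d2 := JB.prod_der (fun c => S a c) hn (fun z => h.cont a z ha) (h.zero a ha)
    (JB.coe_der (R.der (mm t) (LL a b t) (xx b t) (XX a (-(t • b))) y (mm_zero t)
      (LL_zero a b t) (xx_zero b t) (fun e => ⟨mm_pos t e, LL_lor ha hb hab t e⟩)
      (curve_der ha hb hab t))) (w := ((Complex.I • G a y : D) : Completion D)) (by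
        simp only [h0]
        exact hD a y ha)
  have e1 : (fun e : ℝ => W (S a (e * mm t e) (v : Completion D))) =ᶠ[𝓝 0] fun e : ℝ =>
      S a e ((Q.U (mm t e) (LL a b t e) (xx b t e) y : D) : Completion D) := by
    filter_upwards [law_e hU R hL ha hb hab t v] with e he
    rw [hW, he]
  have h6 := d1.unique (d2.congr_of_eventuallyEq e1)
  rw [hW, hU.coe 1 GF.one _ _ one_pos isLor_one, ← UniformSpace.Completion.coe_add] at h6
  have h7 := KB.coe_inj h6
  rw [Vale.Agent.P352.U_smul one_pos Vale.Agent.P352.isLor_one, ← smul_add] at h7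
  exact smul_right_injective D Complex.I_ne_zero h7

/-- the translation law along `b` -/
theorem tra_b (hU : UStmt Q A) (R : Rep Q A) (h : Gr0 Q 𝒜 S) (hD : Dif S G)
    (hL : LawS Q S) {a b : V} (ha : IsNull a) (hb : IsNull b) (hab : GF.mdot a b = 1) (u : ℝ)
    (v : D) : Q.U 1 GF.one (u • b) (G a (Q.U 1 GF.one (-(u • b)) v)) = G a v +
      A (XX a (u • b)) v := by
  have h1 := tra_neg hU R h hD hL ha hb hab (-u) (Q.U 1 GF.one (-(u • b)) v)
  have e1 : -((-u) • b) = u • b := by module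
  rw [e1, Uadd1, add_neg_cancel, Uone] at h1
  exact h1

/-- **The conformal algebra on `D`** -/
theorem confGen_of_law (hu : UqStmt (Completion D)) (hG : TfGen Q) (N : LNm Q A 𝒜)
    (h : Gr0 Q 𝒜 S) (hD : Dif S G) (hL : LawS Q S) : ConfGen Q A G := by
  have hU : UStmt Q A := ublock N.toRep
  have K : NF.KS Q A G := ks_dif hu hG N h hD
  refine { K.toRep with symm := K.symm, cov := K.cov, tra := fun a x v ha => ?_ }
  obtain ⟨b, hb, hab⟩ := exists_dual ha
  show Q.U 1 GF.one x (G a (Q.U 1 GF.one (-x) v)) = G a v + A (XX a x) v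
  set u : ℝ := GF.mdot a x with hu'
  set x0 : V := x - u • b with hx0
  have hax0 : GF.mdot a x0 = 0 := by
    rw [hx0, H755.md_sub, H755.md_smul, hab, mul_one, sub_self]
  have e1 : Q.U 1 GF.one x (G a (Q.U 1 GF.one (-x) v)) = Q.U 1 GF.one (u • b)
      (Q.U 1 GF.one x0 (G a (Q.U 1 GF.one (-x0) (Q.U 1 GF.one (-(u • b)) v)))) := by
    rw [H755.UU, H755.UU]
    have c1 : u • b + x0 = x := by rw [hx0]; module
    have c2 : -x0 + -(u • b) = -x := by rw [hx0]; module
    rw [c1, c2]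
  have hs0 : IsSim 0 (H755.XX a x0) := by
    have h1 := H755.XX_sim a x0
    rw [hax0] at h1
    simpa using h1
  rw [e1, K.tra a x0 _ ha hax0, Vale.Agent.P352.U_add one_pos Vale.Agent.P352.isLor_one,
    NF.f5_conj K.toRep hs0, tra_b hU K.toRep h hD hL ha hb hab u v]
  have e4 : A (H755.XX a x) v = A (H755.XX a (u • b)) v +
      A (fun z => H755.XX a x0 (z - u • b)) v := by
    rw [← H755.A_addX K.toRep v (H755.XX_sim a (u • b)) (H755.sim_shift hs0 (u • b))]
    refine congrArg (fun X => A X v) (funext fun z => ?_)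
    have hx : x = x0 + u • b := by rw [hx0]; module
    rw [hx]
    funext n
    simp only [H755.XX, cK, H755.md_smul, H755.md_smul_l, H755.md_add, H755.md_add_l,
      H755.md_sub, H755.md_sub_l, hab, hb.1, hax0,
      Pi.add_apply, Pi.sub_apply, Pi.smul_apply, smul_eq_mul]
    rw [H755.md_comm x0 b]
    ring
  rw [e4, add_assoc]

end Vale.Agent.P352.BW.H284C

end
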