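import Vale.Agent.P352.BW.H284.Cg
import Vale.Agent.P352.BW.Fz

/-!
# P352 BW: conformal invariance and the conformal algebra on `D` from the law
-/

set_option linter.all false

noncomputable section

open MeasureTheory Filter Topology

namespace Vale.Agent.P352.BW.H284C

open GF H246 H496 H755 H15
open UniformSpace (Completion)
open Vale.Agent.P132 (ModData)

variable {D : Type*} [NormedAddCommGroup D] [InnerProductSpace ℂ D]
  {Q : Theory D} {A : (V → V) → D → D} {𝒜 : Set V → VonNeumannAlgebra (Completion D)}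
  {T : Ix → Ix → Fld D} {J : Ix → Fld D}
  {S : V → ℝ → Completion D →L[ℂ] Completion D}

/-- without currents -/
theorem cg (hG : TfGen Q) (N : LNm Q A 𝒜) (hS : Grp0 Q 𝒜 S) (hL : LawS Q S)
    {G : V → D → D} (hD : Dif S G) : ConfGen Q A G :=
  confGen_of_law (uqS _) hG N hS.toGr hD hL

/-- regularity of one region gives the generators on the domain, without currents -/
theorem dif_of_smo (hG : TfGen Q) (N : LNm Q A 𝒜) (hS : Gr0 Q 𝒜 S) (hs : Smo Q 𝒜) :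
    ∃ G : V → D → D, Dif S G := by
  have M : LNet Q A 𝒜 := Vale.Agent.P352.BW.T.net1 hG (N.lnt1 hs).lnt.lnet0
  have hV : VNet Q A 𝒜 := M.vnet
  have hU : UStmt Q A := ublock M.toRep
  obtain ⟨S1, hS1⟩ := (g1S (A := A)) hV
  have hN : ∀ a b, IsNull a → IsNull b → GF.mdot a b = 1 → Nd Q 𝒜 a b (S1 a b) ∧
      Nonempty (ModData (𝒜 (Wdg a b 0)) (om Q)) ∧
      ∀ c : ℝ, 0 < c → Nonempty (ModData (𝒜 (HM.Rg a b c)) (om Q)) := fun a b ha hb hab =>
    ⟨(hS1 a b ha hb hab).1, (hS1 a b ha hb hab).2.1, (hS1 a b ha hb hab).2.2.1⟩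
  have hN1 : ∀ a b, IsNull a → IsNull b → GF.mdot a b = 1 → Nd Q 𝒜 a b (S1 a b) ∧
      Nonempty (ModData (𝒜 (Wdg a b 0)) (om Q)) ∧
      Nonempty (ModData (𝒜 (HM.Rg a b 1)) (om Q)) := fun a b ha hb hab =>
    ⟨(hS1 a b ha hb hab).1, (hS1 a b ha hb hab).2.1, (hS1 a b ha hb hab).2.2.1 1 one_pos⟩
  have hG3 : G3Stmt Q S1 := g3block S1 hV hN
  obtain ⟨G1, hG1⟩ := jblock (S := S1) hU hV hN1 hG3
  obtain ⟨S2, hS2⟩ := H728.grp_of M hN hG1
  exact ⟨G1, hS.dif hG N hS2⟩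

/-- **The conformal algebra on the domain**, if the domain is invariant or differentiable under
the modular unitaries of one region; without currents -/
theorem cg_dom (hG : TfGen Q) (N : LNm Q A 𝒜) (hS : Grp0 Q 𝒜 S) (hL : LawS Q S)
    (h : Inv Q 𝒜 ∨ Smo Q 𝒜) : ∃ G : V → D → D, Dif S G ∧ ConfGen Q A G := by
  have hs : Smo Q 𝒜 := h.elim (inv_smo (uqS _) hG N) id
  obtain ⟨G, hD⟩ := dif_of_smo hG N hS.toGr hs
  exact ⟨G, hD, cg hG N hS hL hD⟩

/-- **Conformal invariance with the law of the conformal group** -/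
theorem cg_T (hT : Q.IsStress T) (hJ : IsVirial Q T J) (hP : ND.PCh Q T A) (hG : TfGen Q)
    (N : LNm Q A 𝒜) (hS : Grp0 Q 𝒜 S) (hL : LawS Q S) (h : Inv Q 𝒜 ∨ Smo Q 𝒜) :
    N86.ConfInv Q T ∧ ∃ G : V → D → D, Dif S G ∧ ConfGen Q A G ∧
      (∀ m n, NG.LocF Q G (T m n)) ∧ (∀ m, NG.LocF Q G (J m)) := by
  have hs : Smo Q 𝒜 := h.elim (inv_smo (uqS _) hG N) id
  obtain ⟨h1, h2⟩ := main_g (uqS _) hT hJ hP hG N hS.toGr
  obtain ⟨G, hD⟩ := h1.1 hs
  obtain ⟨k0, -, k2, k3, k4, k5, k6⟩ := h2 G hD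
  exact ⟨k0, G, hD, cg hG N hS hL hD, k4, k5⟩

end Vale.Agent.P352.BW.H284C

end
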