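import Vale.Agent.P352.BW.Fe
import Vale.Agent.P352.BW.Lm
import Vale.Agent.P352.H48.Reg1

/-!
# P352 BW: invariance of the domain under the modular unitaries implies regularity
-/

set_option linter.all false

noncomputable section

open MeasureTheory Filter Topology
open scoped ComplexConjugate InnerProductSpace BoundedContinuousFunction

namespace Vale.Agent.P352.BW

open Vale.Agent.P132 (ModData expB)
open UniformSpace (Completion)
open GF H246 H496 H755 H15

namespace H284

variable {D : Type*} [NormedAddCommGroup D] [InnerProductSpace ℂ D]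

section abs

variable {M N : VonNeumannAlgebra (Completion D)} {ξ : Completion D} {E : ModData M ξ}
  {E1 : ModData N ξ} {S : ℝ → Completion D →L[ℂ] Completion D}

/-- `Δ_N^{it} = S(1) Δ_M^{it} S(-1)` -/
lemma conj_one (hs : Hs E E1 S) (t : ℝ) (z : Completion D) :
    E1.U t z = S 1 (E.U t (S (-1) z)) := by
  have h1 := hs.mod t
  have h2 := hs.cov t (-1)
  have h3 : S (1 - Real.exp (-(2 * Real.pi * t))) =
      S 1 * S (Real.exp (-(2 * Real.pi * t)) * -1) := by
    rw [← hs.add]
    congr 1
    ring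
  have h4 : E1.U t = S 1 * (E.U t * S (-1)) := by
    rw [h2, h1, h3, mul_assoc]
  rw [h4]
  rfl

/-- the deformations leave `D` invariant -/
lemma S_inv (hs : Hs E E1 S) (hE : ∀ t (v : D), ∃ w : D, E.U t (v : Completion D) = w)
    (hI : ∀ t (v : D), ∃ w : D, E1.U t (v : Completion D) = w) {c : ℝ} (hc : c < 1) (v : D) :
    ∃ w : D, S c (v : Completion D) = w := by
  set t : ℝ := -(Real.log (1 - c)) / (2 * Real.pi) with ht
  have hp := Real.pi_pos
  have h1 : Real.exp (-(2 * Real.pi * t)) = 1 - c := by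
    have : -(2 * Real.pi * t) = Real.log (1 - c) := by
      rw [ht]
      field_simp
    rw [this, Real.exp_log (by linarith)]
  have h2 := hs.mod t
  rw [h1, sub_sub_cancel] at h2
  obtain ⟨w, hw⟩ := hE (-t) v
  obtain ⟨w', hw'⟩ := hI t w
  refine ⟨w', ?_⟩
  rw [← hw', ← hw, h2]
  show S c (v : Completion D) = S c (E.U t (E.U (-t) (v : Completion D)))
  rw [E.U_apply_neg]

/-- **Invariance of the domain implies regularity.** -/
theorem der_of_inv (hs : Hs E E1 S)
    (hE : ∀ t (v : D), ∃ w : D, E.U t (v : Completion D) = w)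
    (hK : ∀ v : D, ∃ w : D, HasDerivAt (fun t : ℝ => E.U t (v : Completion D))
      (w : Completion D) 0)
    (hI : ∀ t (v : D), ∃ w : D, E1.U t (v : Completion D) = w) (v : D) :
    ∃ w : D, HasDerivAt (fun t : ℝ => E1.U t (v : Completion D)) (w : Completion D) 0 := by
  obtain ⟨v1, hv1⟩ := S_inv hs hE hI (c := -1) (by norm_num) v
  obtain ⟨w1, hw1⟩ := hK v1
  obtain ⟨w2, hw2⟩ := S_inv hs hE hI (c := 1 / 2) (by norm_num) w1
  obtain ⟨w3, hw3⟩ := S_inv hs hE hI (c := 1 / 2) (by norm_num) w2
  have h5 : S 1 (w1 : Completion D) = w3 := by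
    have : S 1 = S (1 / 2) * S (1 / 2) := by
      rw [← hs.add]
      norm_num
    rw [this]
    show S (1 / 2) (S (1 / 2) (w1 : Completion D)) = w3
    rw [hw2, hw3]
  refine ⟨w3, ?_⟩
  have h6 : HasDerivAt (fun t : ℝ => S 1 (E.U t (v1 : Completion D))) (S 1 (w1 : Completion D)) 0 :=
    ((S 1).restrictScalars ℝ).hasFDerivAt.comp_hasDerivAt (0 : ℝ) hw1
  rw [h5] at h6
  have h7 : (fun t : ℝ => E1.U t (v : Completion D)) =
      fun t : ℝ => S 1 (E.U t (v1 : Completion D)) := by
    funext t
    rw [conj_one hs, hv1]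
  rw [h7]
  exact h6

end abs

end H284

end Vale.Agent.P352.BW

end
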