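import Vale.Agent.P352.BW.Md

open MeasureTheory Filter Topology

namespace Vale.Agent.P352.BW

open GF H246 H496 H755 H15
open UniformSpace (Completion)

noncomputable section

variable {D : Type*} [NormedAddCommGroup D] [InnerProductSpace ℂ D]

/-- The modular unitaries of the algebra of one of the regions `Rg a b 1` and the vacuum map `D`
into `D`. -/
def Inv (Q : Theory D) (𝒜 : Set V → VonNeumannAlgebra (Completion D)) : Prop :=
  ∃ a b, IsNull a ∧ IsNull b ∧ GF.mdot a b = 1 ∧ ∀ V J,
    IsMod (𝒜 (HM.Rg a b 1)) (om Q) V J → ∀ (t : ℝ) (v : D), ∃ w : D, V t (v : Completion D) = w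

end

end Vale.Agent.P352.BW
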