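import Vale.Agent.P352.BW.H284.Inv
import Vale.Agent.P352.BW.H284.InvD
import Vale.Agent.P352.BW.H649.Lw
import Vale.Agent.P352.BW.S0.Fin

/-!
# P352 BW: invariance of the domain under the modular unitaries of one region
-/

set_option linter.all false

noncomputable section

open MeasureTheory Filter Topology
open scoped ComplexConjugate InnerProductSpace BoundedContinuousFunction

namespace Vale.Agent.P352.BW

open Vale.Agent.P132 (ModData expB)
open UniformSpace (Completion)
open GF H246 H496 H755 H15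

variable {D : Type*} [NormedAddCommGroup D] [InnerProductSpace ℂ D] {Q : Theory D}
  {A : (V → V) → D → D} {𝒜 : Set V → VonNeumannAlgebra (Completion D)}

/-- a local net with the property of Bisognano and Wichmann -/
theorem H284.s0 (N : LNm Q A 𝒜) (hG : TfGen Q) : S0.LNet Q A 𝒜 :=
  { N.toRep with
    fld := N.fld
    mono := N.mono
    cov := N.cov
    loc := fun a b ha hb hab X hX => N.loc a b X ha hb hab hX
    bw := fun a b t L E z ha hb hab hL h => N.bw hG a b t L E z ha hb hab hL h }

namespace H284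

/-- the modular unitaries of the wedges are the boosts -/
lemma EU (N : LNm Q A 𝒜) (hG : TfGen Q) {a b : V} (ha : IsNull a) (hb : IsNull b)
    (hab : GF.mdot a b = 1) (E : ModData (𝒜 (Wdg a b 0)) (om Q)) (v : D) (t : ℝ) :
    E.U t (v : Completion D) =
      (Q.U 1 (bst a b (Real.exp (-(2 * Real.pi * t)) - 1)
        (Real.exp (2 * Real.pi * t) - 1)) 0 v : D) := by
  rw [N.bw hG a b t _ E v ha hb hab (MB.isLor_b ha hb hab t) (fun x => sim_bst a b _ _ x),
    (ublock N.toRep).coe 1 _ 0 v one_pos (MB.isLor_b ha hb hab t)]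

/-- the boosts are differentiable on `D` -/
lemma EK (N : LNm Q A 𝒜) (hG : TfGen Q) {a b : V} (ha : IsNull a) (hb : IsNull b)
    (hab : GF.mdot a b = 1) (E : ModData (𝒜 (Wdg a b 0)) (om Q)) (v : D) :
    ∃ w : D, HasDerivAt (fun t : ℝ => E.U t (v : Completion D)) (w : Completion D) 0 :=
  ⟨_, (JB.coe_der (MB.boost_der N.toRep ha hb hab v)).congr_of_eventuallyEq
    (Eventually.of_forall fun t => EU N hG ha hb hab E v t)⟩

/-- the unitary group of the half-sided modular inclusion -/
lemma ex_hs (N : LNm Q A 𝒜) (hG : TfGen Q) {a b : V} (ha : IsNull a) (hb : IsNull b)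
    (hab : GF.mdot a b = 1) (E : ModData (𝒜 (Wdg a b 0)) (om Q))
    (E1 : ModData (𝒜 (HM.Rg a b 1)) (om Q)) : ∃ S, Hs E E1 S :=
  fS E E1 (S0.H732G.hsm (s0 N hG).vnet ha hb hab zero_le_one E E1)

/-- invariance implies regularity, for the modular data -/
theorem reg_of (N : LNm Q A 𝒜) (hG : TfGen Q) {a b : V} (ha : IsNull a) (hb : IsNull b)
    (hab : GF.mdot a b = 1) (E1 : ModData (𝒜 (HM.Rg a b 1)) (om Q))
    (hI : ∀ t (v : D), ∃ w : D, E1.U t (v : Completion D) = w) (v : D) :
    ∃ w : D, HasDerivAt (fun t : ℝ => E1.U t (v : Completion D)) (w : Completion D) 0 := by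
  obtain ⟨E⟩ := N.modW ha hb hab
  obtain ⟨S, hs⟩ := ex_hs N hG ha hb hab E E1
  exact der_of_inv hs (fun t v => ⟨_, EU N hG ha hb hab E v t⟩) (EK N hG ha hb hab E) hI v

end H284

/-- **Invariance of the domain under the modular unitaries of one region implies regularity.** -/
theorem inv_smo' (hq : ∀ (M : VonNeumannAlgebra (Completion D)) (ξ : Completion D)
      (E : ModData M ξ) V J, IsMod M ξ V J → ∀ t x, V t x = E.U t x)
    (hG : TfGen Q) (N : LNm Q A 𝒜) (h : Inv Q 𝒜) : Smo Q 𝒜 := by
  obtain ⟨a, b, ha, hb, hab, h⟩ := h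
  refine ⟨a, b, ha, hb, hab, fun V J v hM => ?_⟩
  obtain ⟨E1⟩ := N.modR ha hb hab zero_le_one
  obtain ⟨w, hw⟩ := H284.reg_of N hG ha hb hab E1 (fun t v => h _ _ (isMod E1) t v) v
  refine ⟨w, ?_⟩
  have e : (fun t : ℝ => V t (v : Completion D)) = fun t : ℝ => E1.U t (v : Completion D) := by
    funext t
    exact hq _ _ E1 V J hM t v
  rw [e]
  exact hw

end Vale.Agent.P352.BW

end
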